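import Vale.Agent.P282.Gap.Germ

/-!
P282, global form: klt Fano varieties, their anticanonical degree and their stability threshold.
-/

open scoped NNReal ENNReal Nat
open IsLocalRing Vale.Agent.P282.Gap

namespace Vale.Agent.P282.Fano

variable {K : Type} [Field K] [Algebra ℂ K]

/-- The coordinate ring `ℂ[f / l : f ∈ V]` of the chart `l ≠ 0` of the projective variety
`X = Proj (⨁ V ^ m)`. -/
def chart (V : Submodule ℂ K) (l : K) : Subalgebra ℂ K :=
  Algebra.adjoin ℂ {x | ∃ f ∈ V, x = f / l}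

/-- The local ring of the closed point `p` of the affine variety with coordinate ring `C`. -/
def localRing (C : Subalgebra ℂ K) (p : C →ₐ[ℂ] ℂ) : Subalgebra ℂ K where
  carrier := {x | ∃ a b : C, p b ≠ 0 ∧ x * b = a}
  mul_mem' := by
    rintro x y ⟨a, b, hb, hx⟩ ⟨c, d, hd, hy⟩
    refine ⟨a * c, b * d, by rw [map_mul]; exact mul_ne_zero hb hd, ?_⟩
    push_cast
    rw [← hx, ← hy]
    ring
  add_mem' := by
    rintro x y ⟨a, b, hb, hx⟩ ⟨c, d, hd, hy⟩
    refine ⟨a * d + b * c, b * d, by rw [map_mul]; exact mul_ne_zero hb hd, ?_⟩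
    push_cast
    rw [← hx, ← hy]
    ring
  algebraMap_mem' := fun c => ⟨algebraMap ℂ C c, 1, by simp, by simp⟩

instance (C : Subalgebra ℂ K) (p : C →ₐ[ℂ] ℂ) : IsLocalRing (localRing C p) := by
  refine IsLocalRing.of_isUnit_or_isUnit_one_sub_self ?_
  have key : ∀ (x : localRing C p) (a b : C), p a ≠ 0 → p b ≠ 0 → (x : K) * b = a → IsUnit x := by
    intro x a b ha hb hx
    have ha0 : (a : K) ≠ 0 := by
      intro h0
      have : a = 0 := Subtype.ext h0
      exact ha (by rw [this, map_zero])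
    refine IsUnit.of_mul_eq_one ⟨(b : K) / a, b, a, ha, div_mul_cancel₀ _ ha0⟩ (Subtype.ext ?_)
    change (x : K) * ((b : K) / a) = 1
    rw [← mul_div_assoc, hx, div_self ha0]
  intro x
  obtain ⟨a, b, hb, hx⟩ := x.2
  by_cases ha : p a = 0
  · right
    refine key (1 - x) (b - a) b (by rwa [map_sub, ha, sub_zero]) hb ?_
    push_cast
    rw [sub_mul, hx, one_mul]
  · left
    exact key x a b ha hb hx

/-- `K` is the function field of a klt Fano variety `X = Proj (⨁ V ^ m) ⊆ ℙ(V)` of dimension `n`,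
and `f ↦ f • ω⁻¹` identifies the finite-dimensional space `V` with the space of sections of `-r K_X`
that defines the embedding: at all the closed points of the chart `l ≠ 0`, `l ∈ V`, the local ring
is that of a klt germ, and `l⁻¹ • ω` is a local generator of `r K_X`. -/
structure IsFano (n r : ℕ) (V : Submodule ℂ K) (ω : (Fin n → Derivation ℂ K K) → K) : Prop where
  finite : Module.Finite ℂ V
  ne_bot : V ≠ ⊥
  functionField : ∀ l ∈ V, l ≠ 0 → ∀ x : K, ∃ a b : chart V l, (b : K) ≠ 0 ∧ x * b = a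
  klt : ∀ l ∈ V, l ≠ 0 → ∀ p : chart V l →ₐ[ℂ] ℂ,
    IsKltGerm (localRing (chart V l) p) n r fun D => l⁻¹ * ω D

/-- The anticanonical degree `(-K_X) ^ n`, the volume of `-K_X` (`V ^ m` is the space of sections of
`-m r K_X` for large `m`; the limit exists). -/
noncomputable def degree (n r : ℕ) (V : Submodule ℂ K) : ℝ≥0∞ :=
  Filter.limsup (fun m : ℕ => (n ! : ℝ≥0∞) * (Module.finrank ℂ ↥(V ^ m) : ℝ≥0∞) /
    ((r * m : ℕ) : ℝ≥0∞) ^ n) Filter.atTop

/-- The space of the sections of `-m r K_X` that vanish to order at least `t` along the valuation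
`- log v`, centered in the chart `l ≠ 0`. -/
def vanishing (V : Submodule ℂ K) (l : K) (v : Valuation K ℝ≥0) (m t : ℕ) : Submodule ℂ K :=
  Submodule.span ℂ {f | f ∈ V ^ m ∧ (v (f / l ^ m) : ℝ) ≤ Real.exp (-t)}

/-- The expected vanishing order `S(v)` of `-K_X` along `- log v`, centered in the chart `l ≠ 0`
(the limit exists). -/
noncomputable def expectedOrder (r : ℕ) (V : Submodule ℂ K) (l : K) (v : Valuation K ℝ≥0) :
    ℝ≥0∞ :=
  Filter.limsup (fun m : ℕ => (∑' t : ℕ, (Module.finrank ℂ (vanishing V l v m (t + 1)) : ℝ≥0∞)) /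
    ((r * m * Module.finrank ℂ ↥(V ^ m) : ℕ) : ℝ≥0∞)) Filter.atTop

/-- The stability threshold `δ(X)`: the largest `δ` with `δ S(v) ≤ A(v)` for all the real valuations
of finite log discrepancy `A(v)`. `X` is K-semistable if and only if `δ(X) ≥ 1`. -/
noncomputable def threshold (n r : ℕ) (V : Submodule ℂ K) (ω : (Fin n → Derivation ℂ K K) → K) :
    ℝ≥0∞ :=
  sSup {δ | ∀ l ∈ V, l ≠ 0 → ∀ v : Valuation K ℝ≥0, (∀ f ∈ chart V l, v f ≤ 1) → ∀ a : ℝ,
    IsLogDiscrepancy n r (fun D => l⁻¹ * ω D) v a →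
    δ * expectedOrder r V l v ≤ ENNReal.ofReal a}

end Vale.Agent.P282.Fano
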