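import Mathlib

/-!
P282, global form: the estimate of Fujita and Liu for sequences of numbers.
-/

open scoped NNReal ENNReal Nat
open Filter

namespace Vale.Agent.P282.Fano

theorem pow_step (x : ℝ) (hx : 0 ≤ x) (n : ℕ) :
    x ^ (n + 1) + (n + 1) * x ^ n ≤ (x + 1) ^ (n + 1) := by
  induction n with
  | zero => simp
  | succ n ih =>
    have h1 : (x ^ (n + 1) + (n + 1) * x ^ n) * (x + 1) ≤ (x + 1) ^ (n + 1) * (x + 1) :=
      mul_le_mul_of_nonneg_right ih (by linarith)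
    have h2 : 0 ≤ ((n : ℝ) + 1) * x ^ n := by positivity
    have h3 : (x + 1) ^ (n + 1 + 1) = (x + 1) ^ (n + 1) * (x + 1) := pow_succ _ _
    rw [h3]
    refine le_trans ?_ h1
    push_cast
    have h4 : (x ^ (n + 1) + (n + 1) * x ^ n) * (x + 1) =
      x ^ (n + 1 + 1) + ((n : ℝ) + 1 + 1) * x ^ (n + 1) + ((n : ℝ) + 1) * x ^ n := by ring
    rw [h4]
    linarith

theorem sum_pow_le (n J : ℕ) :
    (n + 1) * ∑ t ∈ Finset.range J, ((t : ℝ) + 1) ^ n ≤ ((J : ℝ) + 1) ^ (n + 1) := by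
  induction J with
  | zero => simp
  | succ J ih =>
    rw [Finset.sum_range_succ, mul_add]
    have h := pow_step ((J : ℝ) + 1) (by positivity) n
    push_cast
    linarith

/-- The contradiction. -/
theorem num_false {n r : ℕ} (hn : 1 ≤ n) (hr : 0 < r) {N : ℕ → ℕ} {F : ℕ → ℕ → ℕ} {L : ℕ → ℝ}
    {d s w C : ℝ} (hd : 0 < d) (hs : 0 < s) (hw : 0 < w) (hC : 0 ≤ C)
    (hL : ∀ t, (n ! : ℝ) * L t ≤ w * (t : ℝ) ^ n + C)
    (hF : ∀ m t, (N m : ℝ) ≤ F m t + L t)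
    (h1 : ∃ᶠ m : ℕ in atTop, d * ((r : ℝ) * m) ^ n ≤ (n ! : ℝ) * N m)
    (h2 : ∀ᶠ m : ℕ in atTop, ∀ J : ℕ, (∑ t ∈ Finset.range J, (F m (t + 1) : ℝ)) ≤
      s * (((r : ℝ) * m) * N m))
    (hlt : ((n + 1 : ℝ) / n) ^ n * s ^ n * w < d) : False := by
  have hn0 : (0 : ℝ) < n := by exact_mod_cast hn
  have hn1 : n ≠ 0 := by omega
  have hf : (0 : ℝ) < (n ! : ℝ) := by exact_mod_cast Nat.factorial_pos n
  set τ : ℝ := (d / w) ^ ((n : ℝ)⁻¹) with hτdef
  have hdw : 0 < d / w := div_pos hd hw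
  have hτ : 0 < τ := Real.rpow_pos_of_pos hdw _
  have hτn : τ ^ n = d / w := by
    rw [hτdef]
    exact Real.rpow_inv_natCast_pow hdw.le hn1
  have hτn1 : w * τ ^ (n + 1) = d * τ := by
    rw [pow_succ, hτn]
    field_simp
  -- `τ` is big
  have hbig : (n + 1 : ℝ) / n * s < τ := by
    have h3 : ((n + 1 : ℝ) / n * s) ^ n < τ ^ n := by
      rw [hτn, mul_pow, lt_div_iff₀ hw]
      exact hlt
    exact lt_of_pow_lt_pow_left₀ n hτ.le h3
  have hbig' : (n + 1) * s < n * τ := by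
    rw [div_mul_eq_mul_div, div_lt_iff₀ hn0] at hbig
    linarith
  have hsτ : s < τ := by nlinarith
  -- the limit
  let g : ℝ → ℝ := fun y => w * (τ + y) ^ (n + 1) / (n + 1) + C * τ * y ^ n - (τ - s - y) * d
  have hg : Continuous g := by
    dsimp only [g]
    fun_prop
  have hg0 : g 0 < 0 := by
    dsimp only [g]
    rw [add_zero, hτn1, zero_pow hn1, mul_zero, add_zero, sub_zero, sub_neg, div_lt_iff₀ (by positivity)]
    nlinarith
  have hlim : Tendsto (fun m : ℕ => ((r : ℝ) * m)⁻¹) atTop (nhds 0) := by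
    refine tendsto_inv_atTop_zero.comp ?_
    exact Tendsto.const_mul_atTop (by exact_mod_cast hr) tendsto_natCast_atTop_atTop
  have hev1 : ∀ᶠ m : ℕ in atTop, g (((r : ℝ) * m)⁻¹) < 0 :=
    ((hg.tendsto 0).comp hlim).eventually (gt_mem_nhds hg0)
  have hev2 : ∀ᶠ m : ℕ in atTop, ((r : ℝ) * m)⁻¹ < τ - s :=
    hlim.eventually (gt_mem_nhds (by linarith))
  have hev3 : ∀ᶠ m : ℕ in atTop, 0 < m := eventually_gt_atTop 0
  obtain ⟨m, ⟨⟨⟨hm1, hm2⟩, hg1⟩, hg2⟩, hm0⟩ :=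
    ((((h1.and_eventually h2).and_eventually hev1).and_eventually hev2).and_eventually hev3).exists
  set x : ℝ := (r : ℝ) * m with hx
  have hx0 : 0 < x := by
    rw [hx]
    have : (0 : ℝ) < m := by exact_mod_cast hm0
    have : (0 : ℝ) < r := by exact_mod_cast hr
    positivity
  set J : ℕ := ⌊τ * x⌋₊ with hJ
  have hJ1 : (J : ℝ) ≤ τ * x := Nat.floor_le (by positivity)
  have hJ2 : τ * x < J + 1 := Nat.lt_floor_add_one _
  have h3 := hm2 J
  -- lower bound of the sum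
  have h4 : (n ! : ℝ) * ∑ t ∈ Finset.range J, (F m (t + 1) : ℝ) ≥
      J * ((n ! : ℝ) * N m) - w * (((J : ℝ) + 1) ^ (n + 1) / (n + 1)) - C * J := by
    have h5 : ∀ t ∈ Finset.range J, (n ! : ℝ) * N m - (w * ((t : ℝ) + 1) ^ n + C) ≤
        (n ! : ℝ) * (F m (t + 1) : ℝ) := by
      intro t _
      have h6 := hL (t + 1)
      have h7 := mul_le_mul_of_nonneg_left (hF m (t + 1)) hf.le
      push_cast at h6
      linarith
    have h8 := Finset.sum_le_sum h5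
    rw [← Finset.mul_sum] at h8
    have h9 : ∑ t ∈ Finset.range J, ((n ! : ℝ) * N m - (w * ((t : ℝ) + 1) ^ n + C)) =
        J * ((n ! : ℝ) * N m) - w * (∑ t ∈ Finset.range J, ((t : ℝ) + 1) ^ n) - C * J := by
      simp only [Finset.sum_sub_distrib, Finset.sum_add_distrib, Finset.mul_sum, Finset.sum_const,
        Finset.card_range, nsmul_eq_mul]
      ring
    rw [h9] at h8
    have h10 : ∑ t ∈ Finset.range J, ((t : ℝ) + 1) ^ n ≤ ((J : ℝ) + 1) ^ (n + 1) / (n + 1) := by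
      rw [le_div_iff₀ (by positivity)]
      have := sum_pow_le n J
      linarith
    have h11 := mul_le_mul_of_nonneg_left h10 hw.le
    linarith
  have h5 : (n ! : ℝ) * ∑ t ∈ Finset.range J, (F m (t + 1) : ℝ) ≤ s * x * ((n ! : ℝ) * N m) := by
    have := mul_le_mul_of_nonneg_left h3 hf.le
    calc _ ≤ (n ! : ℝ) * (s * (x * N m)) := this
      _ = _ := by ring
  have hJs : 0 < (J : ℝ) - s * x := by
    have h6 : 1 < (τ - s) * x := by
      rw [inv_lt_iff_one_lt_mul₀ hx0] at hg2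
      exact hg2
    nlinarith
  have h6 : ((J : ℝ) - s * x) * (d * x ^ n) ≤
      w * (((J : ℝ) + 1) ^ (n + 1) / (n + 1)) + C * J := by
    have h7 := mul_le_mul_of_nonneg_left hm1 hJs.le
    linarith
  have h7 : (τ * x - 1 - s * x) * (d * x ^ n) ≤
      w * ((τ * x + 1) ^ (n + 1) / (n + 1)) + C * (τ * x) := by
    have h8 : (τ * x - 1 - s * x) * (d * x ^ n) ≤ ((J : ℝ) - s * x) * (d * x ^ n) :=
      mul_le_mul_of_nonneg_right (by linarith) (by positivity)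
    have h9 : ((J : ℝ) + 1) ^ (n + 1) ≤ (τ * x + 1) ^ (n + 1) :=
      pow_le_pow_left₀ (by positivity) (by linarith) _
    have h10 : w * (((J : ℝ) + 1) ^ (n + 1) / (n + 1)) ≤
        w * ((τ * x + 1) ^ (n + 1) / (n + 1)) := by gcongr
    have h11 : C * (J : ℝ) ≤ C * (τ * x) := mul_le_mul_of_nonneg_left hJ1 hC
    linarith
  -- divide by `x ^ (n + 1)`
  have h8 : g x⁻¹ * x ^ (n + 1) = w * ((τ * x + 1) ^ (n + 1) / (n + 1)) + C * (τ * x) -
      (τ * x - 1 - s * x) * (d * x ^ n) := by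
    dsimp only [g]
    have e1 : (τ + x⁻¹) ^ (n + 1) * x ^ (n + 1) = (τ * x + 1) ^ (n + 1) := by
      rw [← mul_pow, add_mul, inv_mul_cancel₀ hx0.ne']
    have e2 : x⁻¹ ^ n * x ^ (n + 1) = x := by
      rw [pow_succ, ← mul_assoc, ← mul_pow, inv_mul_cancel₀ hx0.ne', one_pow, one_mul]
    have e3 : (τ - s - x⁻¹) * d * x ^ (n + 1) = (τ * x - 1 - s * x) * (d * x ^ n) := by
      have : (τ - s - x⁻¹) * x = τ * x - 1 - s * x := by
        rw [sub_mul, sub_mul, inv_mul_cancel₀ hx0.ne']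
        ring
      rw [pow_succ, ← this]
      ring
    calc (w * (τ + x⁻¹) ^ (n + 1) / (n + 1) + C * τ * x⁻¹ ^ n - (τ - s - x⁻¹) * d) * x ^ (n + 1)
        = w * (((τ + x⁻¹) ^ (n + 1) * x ^ (n + 1)) / (n + 1)) + C * τ * (x⁻¹ ^ n * x ^ (n + 1)) -
          (τ - s - x⁻¹) * d * x ^ (n + 1) := by ring
      _ = _ := by rw [e1, e2, e3]; ring
  have h9 : g x⁻¹ * x ^ (n + 1) < 0 := mul_neg_of_neg_of_pos hg1 (by positivity)
  linarith

end Vale.Agent.P282.Fano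

namespace Vale.Agent.P282.Fano

/-- The estimate of Fujita and Liu for sequences of numbers. -/
theorem num_le {n r : ℕ} (hn : 1 ≤ n) (hr : 0 < r) {N : ℕ → ℕ} {F : ℕ → ℕ → ℕ} {L : ℕ → ℕ∞}
    (hmono : Monotone L) (hF : ∀ m t, (N m : ℕ∞) ≤ F m t + L t)
    (hS : limsup (fun m : ℕ => (∑' t : ℕ, (F m (t + 1) : ℝ≥0∞)) /
      ((r * m * N m : ℕ) : ℝ≥0∞)) atTop ≠ ⊤)
    (hW : limsup (fun t : ℕ => (n ! : ℝ≥0∞) * (L t : ℝ≥0∞) / (t : ℝ≥0∞) ^ n) atTop ≠ ⊤) :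
    limsup (fun m : ℕ => (n ! : ℝ≥0∞) * (N m : ℝ≥0∞) / ((r * m : ℕ) : ℝ≥0∞) ^ n) atTop ≤
      (((n : ℝ≥0∞) + 1) / n) ^ n *
        limsup (fun m : ℕ => (∑' t : ℕ, (F m (t + 1) : ℝ≥0∞)) /
          ((r * m * N m : ℕ) : ℝ≥0∞)) atTop ^ n *
        limsup (fun t : ℕ => (n ! : ℝ≥0∞) * (L t : ℝ≥0∞) / (t : ℝ≥0∞) ^ n) atTop := by
  set S := limsup (fun m : ℕ => (∑' t : ℕ, (F m (t + 1) : ℝ≥0∞)) /
      ((r * m * N m : ℕ) : ℝ≥0∞)) atTop with hSdef
  set W := limsup (fun t : ℕ => (n ! : ℝ≥0∞) * (L t : ℝ≥0∞) / (t : ℝ≥0∞) ^ n) atTop with hWdef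
  have hn0 : (0 : ℝ) < n := by exact_mod_cast hn
  have hf : (0 : ℝ) < (n ! : ℝ) := by exact_mod_cast Nat.factorial_pos n
  by_contra hcon
  rw [not_le] at hcon
  obtain ⟨d, hd0, hd1, hd2⟩ := ENNReal.lt_iff_exists_real_btwn.1 hcon
  have hc : (((n : ℝ≥0∞) + 1) / n) = ENNReal.ofReal ((n + 1 : ℝ) / n) := by
    rw [ENNReal.ofReal_div_of_pos hn0, ENNReal.ofReal_add hn0.le zero_le_one,
      ENNReal.ofReal_natCast, ENNReal.ofReal_one]
  have hB : (((n : ℝ≥0∞) + 1) / n) ^ n * S ^ n * W =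
      ENNReal.ofReal (((n + 1 : ℝ) / n) ^ n * S.toReal ^ n * W.toReal) := by
    rw [hc, ENNReal.ofReal_mul (by positivity), ENNReal.ofReal_mul (by positivity),
      ENNReal.ofReal_pow (by positivity), ENNReal.ofReal_pow ENNReal.toReal_nonneg,
      ENNReal.ofReal_toReal hS, ENNReal.ofReal_toReal hW]
  rw [hB] at hd1
  have hd3 : ((n + 1 : ℝ) / n) ^ n * S.toReal ^ n * W.toReal < d :=
    (ENNReal.ofReal_lt_ofReal_iff_of_nonneg (by positivity)).1 hd1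
  have hdpos : 0 < d := lt_of_le_of_lt (by positivity) hd3
  obtain ⟨ε, hε, hlt⟩ : ∃ ε : ℝ, 0 < ε ∧
      ((n + 1 : ℝ) / n) ^ n * (S.toReal + ε) ^ n * (W.toReal + ε) < d := by
    have hcont : Continuous fun ε : ℝ =>
        ((n + 1 : ℝ) / n) ^ n * (S.toReal + ε) ^ n * (W.toReal + ε) := by fun_prop
    have h1 : ∀ᶠ ε : ℝ in nhds 0,
        ((n + 1 : ℝ) / n) ^ n * (S.toReal + ε) ^ n * (W.toReal + ε) < d :=
      (hcont.tendsto 0).eventually (gt_mem_nhds (by simpa using hd3))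
    obtain ⟨δ, hδ, h2⟩ := Metric.eventually_nhds_iff.1 h1
    refine ⟨δ / 2, by positivity, h2 ?_⟩
    rw [Real.dist_eq, sub_zero, abs_of_pos (by positivity)]
    linarith
  have hSlt : S < ENNReal.ofReal (S.toReal + ε) := by
    rw [ENNReal.lt_ofReal_iff_toReal_lt hS]
    linarith
  have hWlt : W < ENNReal.ofReal (W.toReal + ε) := by
    rw [ENNReal.lt_ofReal_iff_toReal_lt hW]
    linarith
  set s := S.toReal + ε
  set w := W.toReal + ε
  have hs : 0 < s := by have := ENNReal.toReal_nonneg (a := S); positivity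
  have hw : 0 < w := by have := ENNReal.toReal_nonneg (a := W); positivity
  have e1 := frequently_lt_of_lt_limsup (by isBoundedDefault) hd2
  have e2 := eventually_lt_of_limsup_lt hSlt
  have e3 := eventually_lt_of_limsup_lt hWlt
  -- the lengths
  obtain ⟨t0, ht0⟩ := eventually_atTop.1 e3
  have hLt : ∀ t, t0 ≤ t → 0 < t → L t ≠ ⊤ ∧ (n ! : ℝ) * (L t).toNat ≤ w * (t : ℝ) ^ n := by
    intro t ht htp
    have h1 := ht0 t ht
    have htn : ((t : ℝ≥0∞)) ^ n ≠ 0 := pow_ne_zero _ (by exact_mod_cast htp.ne')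
    have htn' : ((t : ℝ≥0∞)) ^ n ≠ ⊤ := ENNReal.pow_ne_top (ENNReal.natCast_ne_top t)
    have h2 : (n ! : ℝ≥0∞) * (L t : ℝ≥0∞) ≤ ENNReal.ofReal w * (t : ℝ≥0∞) ^ n :=
      (ENNReal.div_le_iff_le_mul (Or.inl htn) (Or.inl htn')).1 h1.le
    have h3 : L t ≠ ⊤ := by
      intro h
      rw [h, ENat.toENNReal_top, ENNReal.mul_top (by exact_mod_cast (Nat.factorial_pos n).ne')] at h2
      exact (ENNReal.mul_ne_top ENNReal.ofReal_ne_top htn') (top_le_iff.1 h2)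
    refine ⟨h3, ?_⟩
    obtain ⟨k, hk⟩ := ENat.ne_top_iff_exists.1 h3
    rw [← hk] at h2 ⊢
    rw [ENat.toENNReal_coe] at h2
    rw [ENat.toNat_natCast]
    have h4 : ENNReal.ofReal ((n ! : ℝ) * k) ≤ ENNReal.ofReal (w * (t : ℝ) ^ n) := by
      rw [ENNReal.ofReal_mul hf.le, ENNReal.ofReal_mul hw.le, ENNReal.ofReal_pow (by positivity),
        ENNReal.ofReal_natCast, ENNReal.ofReal_natCast, ENNReal.ofReal_natCast]
      exact h2
    exact (ENNReal.ofReal_le_ofReal_iff (by positivity)).1 h4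
  have hfin : ∀ t, L t ≠ ⊤ := by
    intro t
    have h1 := (hLt (max t (t0 + 1)) (le_trans (Nat.le_succ _) (le_max_right _ _))
      (lt_of_lt_of_le (Nat.succ_pos _) (le_max_right _ _))).1
    exact ne_top_of_le_ne_top h1 (hmono (le_max_left _ _))
  refine num_false hn hr (N := N) (F := F) (L := fun t => ((L t).toNat : ℝ)) hdpos hs hw
    (C := (n ! : ℝ) * (L (t0 + 1)).toNat) (by positivity) ?_ ?_ ?_ ?_ hlt
  · intro t
    rcases le_or_gt (t0 + 1) t with h | h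
    · have h1 := (hLt t (by omega) (by omega)).2
      have h2 : 0 ≤ (n ! : ℝ) * (L (t0 + 1)).toNat := by positivity
      linarith
    · have h1 : (L t).toNat ≤ (L (t0 + 1)).toNat := ENat.toNat_le_toNat (hmono h.le) (hfin _)
      have h2 : (n ! : ℝ) * (L t).toNat ≤ (n ! : ℝ) * (L (t0 + 1)).toNat := by
        gcongr
      have h3 : 0 ≤ w * (t : ℝ) ^ n := by positivity
      linarith
  · intro m t
    have h1 := hF m t
    obtain ⟨k, hk⟩ := ENat.ne_top_iff_exists.1 (hfin t)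
    simp only [← hk] at h1 ⊢
    rw [ENat.toNat_natCast]
    exact_mod_cast h1
  · refine (e1.and_eventually (eventually_gt_atTop 0)).mono ?_
    rintro m ⟨h1, hm⟩
    have hrm : ((r * m : ℕ) : ℝ≥0∞) ^ n ≠ 0 :=
      pow_ne_zero _ (by exact_mod_cast (Nat.mul_pos hr hm).ne')
    have hrm' : ((r * m : ℕ) : ℝ≥0∞) ^ n ≠ ⊤ := ENNReal.pow_ne_top (ENNReal.natCast_ne_top _)
    have h2 : ENNReal.ofReal d * ((r * m : ℕ) : ℝ≥0∞) ^ n ≤ (n ! : ℝ≥0∞) * (N m : ℝ≥0∞) :=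
      (ENNReal.le_div_iff_mul_le (Or.inl hrm) (Or.inl hrm')).1 h1.le
    have h4 : ENNReal.ofReal (d * ((r * m : ℕ) : ℝ) ^ n) ≤ ENNReal.ofReal ((n ! : ℝ) * N m) := by
      rw [ENNReal.ofReal_mul hd0, ENNReal.ofReal_mul hf.le, ENNReal.ofReal_pow (by positivity),
        ENNReal.ofReal_natCast, ENNReal.ofReal_natCast, ENNReal.ofReal_natCast]
      exact h2
    have h5 := (ENNReal.ofReal_le_ofReal_iff (by positivity)).1 h4
    push_cast at h5
    exact h5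
  · refine e2.mono fun m h1 J => ?_
    have h2 : (∑' t : ℕ, (F m (t + 1) : ℝ≥0∞)) ≤
        ENNReal.ofReal s * ((r * m * N m : ℕ) : ℝ≥0∞) :=
      (ENNReal.div_le_iff_le_mul (Or.inr ENNReal.ofReal_ne_top)
        (Or.inl (ENNReal.natCast_ne_top _))).1 h1.le
    have h3 : ((∑ t ∈ Finset.range J, F m (t + 1) : ℕ) : ℝ≥0∞) ≤
        ENNReal.ofReal s * ((r * m * N m : ℕ) : ℝ≥0∞) := by
      refine le_trans ?_ h2
      rw [Nat.cast_sum]
      exact ENNReal.sum_le_tsum _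
    have h4 : ENNReal.ofReal ((∑ t ∈ Finset.range J, F m (t + 1) : ℕ) : ℝ) ≤
        ENNReal.ofReal (s * ((r * m * N m : ℕ) : ℝ)) := by
      rw [ENNReal.ofReal_mul hs.le, ENNReal.ofReal_natCast, ENNReal.ofReal_natCast]
      exact h3
    have h5 := (ENNReal.ofReal_le_ofReal_iff (by positivity)).1 h4
    push_cast at h5
    exact h5

end Vale.Agent.P282.Fano
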