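import Vale.Agent.P282.H804.Defs
import Vale.Agent.P282.H804.Num
import Vale.Agent.P282.Bd3.B11

/-!
P282, global form: the bound of the degree of a klt Fano variety with a singular point.
-/

open scoped NNReal ENNReal Nat
open IsLocalRing Filter

namespace Vale.Agent.P282.Fano

variable {K : Type} [Field K] [Algebra ℂ K]

theorem le_localRing (C : Subalgebra ℂ K) (p : C →ₐ[ℂ] ℂ) : C ≤ localRing C p := fun x hx =>
  ⟨⟨x, hx⟩, 1, by simp, by simp⟩

theorem isFractionRing_localRing {C : Subalgebra ℂ K} (p : C →ₐ[ℂ] ℂ)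
    (h : ∀ x : K, ∃ a b : C, (b : K) ≠ 0 ∧ x * b = a) : IsFractionRing (localRing C p) K := by
  have hinj : Function.Injective (algebraMap (localRing C p) K) := Subtype.val_injective
  refine ⟨?_, ?_, ?_⟩
  · intro y
    have : (y : localRing C p) ≠ 0 := nonZeroDivisors.ne_zero y.2
    refine IsUnit.mk0 _ ?_
    exact (map_ne_zero_iff _ hinj).2 this
  · intro x
    obtain ⟨a, b, hb, hx⟩ := h x
    have hb' : (⟨b, le_localRing C p b.2⟩ : localRing C p) ≠ 0 := by
      intro h0
      exact hb (congrArg Subtype.val h0)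
    exact ⟨⟨⟨a, le_localRing C p a.2⟩, ⟨⟨b, le_localRing C p b.2⟩,
      mem_nonZeroDivisors_of_ne_zero hb'⟩⟩, hx⟩
  · intro x y hxy
    exact ⟨1, by rw [hinj hxy]⟩

/-- The quotient of a section of `-m r K_X` by `l ^ m` is a function on the chart. -/
theorem div_mem_chart {V : Submodule ℂ K} {l : K} (m : ℕ) {f : K} (hf : f ∈ V ^ m) :
    f / l ^ m ∈ chart V l := by
  induction m generalizing f with
  | zero =>
    rw [pow_zero] at hf
    obtain ⟨c, rfl⟩ := Submodule.mem_one.1 hf
    rw [pow_zero, div_one]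
    exact Subalgebra.algebraMap_mem _ c
  | succ m ih =>
    rw [pow_succ] at hf
    refine Submodule.mul_induction_on hf ?_ ?_
    · intro x hx y hy
      have h1 : x * y / l ^ (m + 1) = (x / l ^ m) * (y / l) := by
        rw [pow_succ, mul_div_mul_comm]
      rw [h1]
      exact mul_mem (ih hx) (Algebra.subset_adjoin ⟨y, hy, rfl⟩)
    · intro x y hx hy
      rw [add_div]
      exact add_mem hx hy

theorem finrank_le_add {V : Submodule ℂ K} (hV : Module.Finite ℂ V) {l : K} {R : Subalgebra ℂ K}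
    [IsLocalRing R] (hl : chart V l ≤ R)
    (hres : Function.Surjective (algebraMap ℂ (ResidueField R))) {v : Valuation K ℝ≥0}
    (hv : ∀ f : R, v (algebraMap R K f) ≤ 1) (m t : ℕ) :
    (Module.finrank ℂ ↥(V ^ m) : ℕ∞) ≤ Module.finrank ℂ (vanishing V l v m t) +
      Module.length R (R ⧸ Full.valIdeal R v t) := by
  have hVm : Module.Finite ℂ ↥(V ^ m) := by
    rw [Module.Finite.iff_fg] at hV ⊢
    exact hV.pow m
  let T0 : ↥(V ^ m) →ₗ[ℂ] R :=
    { toFun := fun f => ⟨(f : K) / l ^ m, hl (div_mem_chart m f.2)⟩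
      map_add' := fun f g => Subtype.ext (by simp [add_div])
      map_smul' := fun c f => Subtype.ext (by simp [smul_div_assoc]) }
  let T : ↥(V ^ m) →ₗ[ℂ] (R ⧸ Full.valIdeal R v t) :=
    (Ideal.Quotient.mkₐ ℂ (Full.valIdeal R v t)).toLinearMap ∘ₗ T0
  have hvan : vanishing V l v m t ≤ V ^ m := by
    refine Submodule.span_le.2 ?_
    rintro f ⟨hf, -⟩
    exact hf
  have hfin : Module.Finite ℂ (vanishing V l v m t) :=
    Submodule.finiteDimensional_of_le hvan
  have hker : (LinearMap.ker T).map (V ^ m).subtype ≤ vanishing V l v m t := by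
    rintro _ ⟨f, hf, rfl⟩
    refine Submodule.subset_span ⟨f.2, ?_⟩
    have h1 : Ideal.Quotient.mk (Full.valIdeal R v t) (T0 f) = 0 := hf
    rw [Ideal.Quotient.eq_zero_iff_mem, Full.half_mem_valIdeal hv] at h1
    exact h1
  have hrk := LinearMap.finrank_range_add_finrank_ker T
  have h4 : Module.finrank ℂ (LinearMap.ker T) ≤ Module.finrank ℂ (vanishing V l v m t) := by
    rw [← Submodule.finrank_map_subtype_eq]
    exact Submodule.finrank_mono hker
  have h5 : (Module.finrank ℂ (LinearMap.range T) : ℕ∞) ≤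
      Module.length R (R ⧸ Full.valIdeal R v t) := by
    rw [← Full.half_length_eq hres, ← Module.length_eq_finrank]
    exact Module.length_le_of_injective (LinearMap.range T).subtype
      (LinearMap.range T).subtype_injective
  calc (Module.finrank ℂ ↥(V ^ m) : ℕ∞)
      = ((Module.finrank ℂ (LinearMap.range T) + Module.finrank ℂ (LinearMap.ker T) : ℕ) : ℕ∞) := by
        rw [hrk]
    _ = (Module.finrank ℂ (LinearMap.ker T) : ℕ∞) +
        (Module.finrank ℂ (LinearMap.range T) : ℕ∞) := by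
        rw [Nat.cast_add, add_comm]
    _ ≤ _ := add_le_add (by exact_mod_cast h4) h5

end Vale.Agent.P282.Fano

namespace Vale.Agent.P282.Fano

variable {K : Type} [Field K] [Algebra ℂ K]

private theorem num_bound (n : ℕ) (hn : 2 ≤ n) (a W : ℝ≥0∞)
    (h : a ^ n * W ≤ 2 * ((n : ℝ≥0∞) - 1) ^ n) :
    (((n : ℝ≥0∞) + 1) / n) ^ n * a ^ n * W ≤ 2 * (((n : ℝ≥0∞) ^ 2 - 1) / n) ^ n := by
  have e1 : ((n : ℝ≥0∞) ^ 2 - 1) = (n + 1) * (n - 1) := by
    obtain ⟨k, rfl⟩ : ∃ k, n = k + 1 := ⟨n - 1, by omega⟩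
    have h1 : (((k + 1 : ℕ) : ℝ≥0∞) - 1) = (k : ℝ≥0∞) := by
      rw [Nat.cast_add, Nat.cast_one, ENNReal.add_sub_cancel_right ENNReal.one_ne_top]
    rw [h1]
    refine ENNReal.sub_eq_of_eq_add ENNReal.one_ne_top ?_
    push_cast
    ring
  calc (((n : ℝ≥0∞) + 1) / n) ^ n * a ^ n * W
      = (((n : ℝ≥0∞) + 1) / n) ^ n * (a ^ n * W) := by ring
    _ ≤ (((n : ℝ≥0∞) + 1) / n) ^ n * (2 * ((n : ℝ≥0∞) - 1) ^ n) := by gcongr
    _ = 2 * (((n : ℝ≥0∞) ^ 2 - 1) / n) ^ n := by
        rw [e1, ENNReal.div_eq_inv_mul, ENNReal.div_eq_inv_mul, mul_pow, mul_pow, mul_pow]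
        ring

/-- Every klt Fano variety `X` of dimension `n ≥ 2` with a singular point satisfies
`δ(X) ^ n (-K_X) ^ n ≤ 2 ((n ^ 2 - 1) / n) ^ n`. -/
theorem threshold_degree_le {n r : ℕ} (hn : 2 ≤ n) {V : Submodule ℂ K}
    {ω : (Fin n → Derivation ℂ K K) → K} (hX : IsFano n r V ω) {l : K} (hl : l ∈ V) (hl0 : l ≠ 0)
    {p : chart V l →ₐ[ℂ] ℂ} (hp : ¬ IsRegularLocalRing (localRing (chart V l) p)) :
    threshold n r V ω ^ n * degree n r V ≤ 2 * (((n : ℝ≥0∞) ^ 2 - 1) / n) ^ n := by
  have hn1 : 1 ≤ n := by omega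
  have hn0 : n ≠ 0 := by omega
  have hgerm := hX.klt l hl hl0 p
  have hfrac := isFractionRing_localRing p (hX.functionField l hl hl0)
  have hfull : Full.IsKltGerm (localRing (chart V l) p) n r (fun D => l⁻¹ * ω D) :=
    { essFiniteType := hgerm.essFiniteType
      normal := hgerm.normal
      residue := hgerm.residue
      dim := hgerm.dim
      index_pos := hgerm.index_pos
      form := hgerm.form
      canonical := hgerm.canonical
      klt := hgerm.klt }
  obtain ⟨v, a, ha0, hv, ha, hle⟩ := Full.general hn hfull hp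
  set R := localRing (chart V l) p with hR
  have hv1 : ∀ f : R, v (algebraMap R K f) ≤ 1 := fun f => (hv f).1
  -- the log discrepancy is positive
  have hbot : maximalIdeal R ≠ ⊥ := by
    intro hb
    have hsurj : Function.Surjective (algebraMap ℂ R) := by
      intro f
      obtain ⟨c, hc⟩ := hgerm.residue (IsLocalRing.residue R f)
      refine ⟨c, ?_⟩
      have h1 : IsLocalRing.residue R (algebraMap ℂ R c - f) = 0 := by
        rw [map_sub, sub_eq_zero, ← hc]
        rfl
      rw [IsLocalRing.residue_eq_zero_iff, hb, Ideal.mem_bot, sub_eq_zero] at h1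
      exact h1
    have halg : Algebra.IsAlgebraic ℂ R := by
      refine ⟨fun f => ?_⟩
      obtain ⟨c, rfl⟩ := hsurj f
      exact isAlgebraic_algebraMap c
    have h0 : Algebra.trdeg ℂ R = 0 := trdeg_eq_zero
    rw [hgerm.dim] at h0
    have : n = 0 := by exact_mod_cast h0
    omega
  have hapos : 0 < a := hgerm.klt v _ a hv hbot ha
  -- the threshold
  have hthr : threshold n r V ω * expectedOrder r V l v ≤ ENNReal.ofReal a := by
    unfold threshold
    rw [ENNReal.sSup_mul]
    refine iSup₂_le ?_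
    intro δ hδ
    exact hδ l hl hl0 v (fun f hf => hv1 ⟨f, le_localRing _ p hf⟩) a ha
  have hmono : Monotone fun t : ℕ => Module.length R (R ⧸ Full.valIdeal R v t) := by
    intro s t hst
    have h1 : Full.valIdeal R v t ≤ Full.valIdeal R v s := by
      refine Ideal.span_mono ?_
      intro f hf
      have h2 : Real.exp (-(t : ℝ)) ≤ Real.exp (-(s : ℝ)) := by
        rw [Real.exp_le_exp]
        have : (s : ℝ) ≤ t := by exact_mod_cast hst
        linarith
      exact le_trans hf h2
    exact Module.length_le_of_surjective (Submodule.factor h1) (Submodule.factor_surjective h1)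
  have hW : Full.vol R n v ≠ ⊤ := by
    intro h
    rw [h] at hle
    have h1 : ENNReal.ofReal a ^ n ≠ 0 := pow_ne_zero _ (by rwa [ne_eq, ENNReal.ofReal_eq_zero,
      not_le])
    rw [ENNReal.mul_top h1, top_le_iff] at hle
    exact ENNReal.mul_ne_top (by norm_num) (ENNReal.pow_ne_top (ENNReal.sub_ne_top
      (ENNReal.natCast_ne_top n))) hle
  by_cases hS : expectedOrder r V l v = ⊤
  · have h1 : threshold n r V ω = 0 := by
      by_contra h0
      rw [hS, ENNReal.mul_top h0, top_le_iff] at hthr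
      exact ENNReal.ofReal_ne_top hthr
    rw [h1, zero_pow hn0, zero_mul]
    exact zero_le
  · have hmain := num_le (n := n) (r := r) hn1 hgerm.index_pos
      (N := fun m => Module.finrank ℂ ↥(V ^ m))
      (F := fun m t => Module.finrank ℂ (vanishing V l v m t)) hmono
      (fun m t => finrank_le_add hX.finite (le_localRing _ p) hgerm.residue hv1 m t) hS hW
    have h2 : degree n r V ≤ (((n : ℝ≥0∞) + 1) / n) ^ n * expectedOrder r V l v ^ n *
      Full.vol R n v := hmain
    calc threshold n r V ω ^ n * degree n r V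
        ≤ threshold n r V ω ^ n * ((((n : ℝ≥0∞) + 1) / n) ^ n * expectedOrder r V l v ^ n *
          Full.vol R n v) := by gcongr
      _ = (((n : ℝ≥0∞) + 1) / n) ^ n * (threshold n r V ω * expectedOrder r V l v) ^ n *
          Full.vol R n v := by ring
      _ ≤ (((n : ℝ≥0∞) + 1) / n) ^ n * ENNReal.ofReal a ^ n * Full.vol R n v := by gcongr
      _ ≤ _ := num_bound n hn _ _ hle

end Vale.Agent.P282.Fano
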